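import Vale.Agent.P034.H953.Core

set_option linter.all false

/-! The multi-scale selector inequality. -/

namespace Vale.Agent.P034.H953.H434

open Finset Vale.Agent.P034

variable {X : Type*} [Fintype X] [DecidableEq X]

theorem bad_mass (κ : ℝ) (q : X → ℝ) (hq : ∀ x, 0 < q x) (J : X → ℕ)
    (hJ : ∀ x, ∑ i ∈ range (J x), 160 * 16 ^ i * q x ≤ 1)
    (F : Finset (Finset X)) (lam : Finset X → X → ℝ)
    (hl : ∀ H ∈ F, ∀ x, 0 ≤ lam H x) (hsum : ∀ H ∈ F, ∑ x, lam H x ≤ 1)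
    (hsupp : ∀ H ∈ F, ∀ x, x ∉ H → lam H x = 0)
    (hns : ∀ G : Finset (Finset X), (∀ H ∈ F, ∃ S ∈ G, S ⊆ H) →
      κ ≤ ∑ S ∈ G, ∏ x ∈ S, q x)
    (B : Finset (X → ℕ))
    (hB : ∀ φ ∈ B, (∀ x, φ x ≤ J x) ∧ ∀ H ∈ F, 1 / 12 < ∑ x, lam H x * φ x) :
    (∑ φ ∈ B, ∏ x, lv (q x) (J x) (φ x)) * κ ≤ 21 / 100 := by
  classical
  have hlv : ∀ x j, 0 ≤ lv (q x) (J x) j :=
    fun x => lv_nonneg (q x) (hq x).le (J x) (hJ x)
  set J0 : ℕ := univ.sup J with hJ0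
  have hJJ0 : ∀ x, J x ≤ J0 := fun x => Finset.le_sup (f := J) (mem_univ x)
  set Ω : Finset (X → ℕ) := Fintype.piFinset (fun x => range (J x + 1)) with hΩ
  have hΩmem : ∀ φ : X → ℕ, φ ∈ Ω ↔ ∀ x, φ x ≤ J x := by
    intro φ
    rw [hΩ, Fintype.mem_piFinset]
    constructor
    · intro h x; have := h x; rw [mem_range] at this; omega
    · intro h x; have := h x; rw [mem_range]; omega
  let V : (X → ℕ) → (X → ℕ) → Prop := fun φ ψ =>
    (∀ x, ψ x ≤ φ x) ∧ (diffSet φ ψ).Nonempty ∧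
      diffSet φ ψ ⊆ NN J0 F lam ψ (prof ψ (diffSet φ ψ))
  have hcost : ∀ φ ∈ B, κ ≤ ∑ ψ ∈ Ω.filter (fun ψ => V φ ψ), ∏ x ∈ diffSet φ ψ, q x := by
    intro φ hφ
    obtain ⟨hφJ, hbad⟩ := hB φ hφ
    have hcov := hns ((Ω.filter (fun ψ => V φ ψ)).image (fun ψ => diffSet φ ψ)) (by
      intro H hH
      obtain ⟨ψ, h1, h2, h3, h4⟩ := exists_valid' J0 F lam hl hsum hsupp φ
        (fun x => (hφJ x).trans (hJJ0 x)) hbad H hH
      refine ⟨diffSet φ ψ, ?_, h2⟩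
      rw [mem_image]
      refine ⟨ψ, ?_, rfl⟩
      rw [mem_filter, hΩmem]
      exact ⟨fun x => (h1 x).trans (hφJ x), h1, h3, h4⟩)
    refine hcov.trans ?_
    rw [← Finset.sum_fiberwise_of_maps_to (g := fun ψ => diffSet φ ψ)
      (t := (Ω.filter (fun ψ => V φ ψ)).image (fun ψ => diffSet φ ψ))
      (fun ψ hψ => mem_image_of_mem _ hψ)]
    apply Finset.sum_le_sum
    intro S hS
    rw [mem_image] at hS
    obtain ⟨ψ, hψ, rfl⟩ := hS
    have hm : ψ ∈ (Ω.filter (fun ψ => V φ ψ)).filter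
        (fun ψ' => diffSet φ ψ' = diffSet φ ψ) := by
      rw [mem_filter]; exact ⟨hψ, rfl⟩
    exact Finset.single_le_sum (f := fun ψ' => ∏ x ∈ diffSet φ ψ', q x)
      (fun i _ => Finset.prod_nonneg (fun x _ => (hq x).le)) hm
  have h1 : (∑ φ ∈ B, ∏ x, lv (q x) (J x) (φ x)) * κ ≤
      ∑ φ ∈ Ω, ∑ ψ ∈ Ω.filter (fun ψ => V φ ψ),
        (∏ x, lv (q x) (J x) (φ x)) * ∏ x ∈ diffSet φ ψ, q x := by
    rw [Finset.sum_mul]
    calc ∑ φ ∈ B, (∏ x, lv (q x) (J x) (φ x)) * κ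
        ≤ ∑ φ ∈ B, ∑ ψ ∈ Ω.filter (fun ψ => V φ ψ),
            (∏ x, lv (q x) (J x) (φ x)) * ∏ x ∈ diffSet φ ψ, q x := by
          apply Finset.sum_le_sum
          intro φ hφ
          rw [← Finset.mul_sum]
          exact mul_le_mul_of_nonneg_left (hcost φ hφ)
            (Finset.prod_nonneg (fun x _ => hlv x _))
      _ ≤ _ := by
          apply Finset.sum_le_sum_of_subset_of_nonneg
          · intro φ hφ
            rw [hΩmem]
            exact (hB φ hφ).1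
          · intro φ _ _
            apply Finset.sum_nonneg
            intro ψ _
            exact mul_nonneg (Finset.prod_nonneg (fun x _ => hlv x _))
              (Finset.prod_nonneg (fun x _ => (hq x).le))
  have h2 : ∑ φ ∈ Ω, ∑ ψ ∈ Ω.filter (fun ψ => V φ ψ),
        (∏ x, lv (q x) (J x) (φ x)) * ∏ x ∈ diffSet φ ψ, q x
      = ∑ ψ ∈ Ω, ∑ φ ∈ Ω.filter (fun φ => V φ ψ),
        (∏ x, lv (q x) (J x) (φ x)) * ∏ x ∈ diffSet φ ψ, q x := by
    apply Finset.sum_comm'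
    intro φ ψ
    simp only [mem_filter]
    tauto
  have h3 : ∀ ψ ∈ Ω, ∑ φ ∈ Ω.filter (fun φ => V φ ψ),
        (∏ x, lv (q x) (J x) (φ x)) * ∏ x ∈ diffSet φ ψ, q x
        ≤ (∏ x, lv (q x) (J x) (ψ x)) * (21 / 100) := by
    intro ψ _
    have hc := count_bound J0 ψ (NN J0 F lam ψ) (fun t j _ => NN_card J0 F lam ψ t j)
    set W := univ.filter (fun T : Finset X => T.Nonempty ∧ (∀ x ∈ T, ψ x < J x) ∧
      T ⊆ NN J0 F lam ψ (prof ψ T)) with hW
    have hc' : ∑ T ∈ W, ∏ x ∈ T, wd (ψ x) ≤ 21 / 100 := by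
      refine le_trans (Finset.sum_le_sum_of_subset_of_nonneg ?_ ?_) hc
      · intro T hT
        rw [hW, mem_filter] at hT
        rw [mem_filter]
        exact ⟨hT.1, hT.2.1, fun x hx => (hT.2.2.1 x hx).trans_le (hJJ0 x), hT.2.2.2⟩
      · intro T _ _
        exact Finset.prod_nonneg (fun x _ => (wd_pos _).le)
    rw [← Finset.sum_fiberwise_of_maps_to (g := fun φ => diffSet φ ψ) (t := W)]
    · calc ∑ T ∈ W, ∑ φ ∈ (Ω.filter (fun φ => V φ ψ)).filter (fun φ => diffSet φ ψ = T),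
            (∏ x, lv (q x) (J x) (φ x)) * ∏ x ∈ diffSet φ ψ, q x
          ≤ ∑ T ∈ W, (∏ x, lv (q x) (J x) (ψ x)) * ∏ x ∈ T, wd (ψ x) := by
            apply Finset.sum_le_sum
            intro T hT
            rw [hW, mem_filter] at hT
            apply inner_sum q (fun x => (hq x).le) J hJ ψ T hT.2.2.1
            intro φ hφ
            rw [mem_filter, mem_filter, hΩmem] at hφ
            exact ⟨hφ.1.2.1, hφ.1.1, hφ.2⟩
        _ = (∏ x, lv (q x) (J x) (ψ x)) * ∑ T ∈ W, ∏ x ∈ T, wd (ψ x) := by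
            rw [Finset.mul_sum]
        _ ≤ _ := mul_le_mul_of_nonneg_left hc' (Finset.prod_nonneg (fun x _ => hlv x _))
    · intro φ hφ
      rw [mem_filter, hΩmem] at hφ
      obtain ⟨hφJ, _, hne, hsub⟩ := hφ
      rw [hW, mem_filter]
      refine ⟨mem_univ _, hne, ?_, hsub⟩
      intro x hx
      rw [mem_diffSet] at hx
      exact lt_of_lt_of_le hx (hφJ x)
  have h4 : ∑ ψ ∈ Ω, (∏ x, lv (q x) (J x) (ψ x)) * (21 / 100) = 21 / 100 := by
    rw [← Finset.sum_mul, hΩ,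
      ← Finset.prod_univ_sum (fun x : X => range (J x + 1)) (fun x j => lv (q x) (J x) j)]
    simp only [sum_lv, prod_const_one, one_mul]
  have h5 := Finset.sum_le_sum h3
  rw [h4] at h5
  rw [h2] at h1
  linarith only [h1, h5]


end Vale.Agent.P034.H953.H434
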