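import Mathlib.MeasureTheory.Measure.Lebesgue.Basic
import Mathlib.Analysis.SpecialFunctions.Log.PosLog
import Mathlib.Analysis.Complex.ExponentialBounds
import Vale.Agent.P034.H434.Mass

set_option linter.all false

/-! The multi-scale selector inequality on the unit cube. -/

namespace Vale.Agent.P034.H953.H434

open Finset Vale.Agent.P034 MeasureTheory

/-- endpoints of the levels -/
noncomputable def sj (q : ℝ) (j : ℕ) : ℝ := ∑ i ∈ range j, 160 * 16 ^ i * q

theorem sj_succ (q : ℝ) (j : ℕ) : sj q (j + 1) = sj q j + 160 * 16 ^ j * q := by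
  unfold sj
  rw [Finset.sum_range_succ]

theorem sj_le (q : ℝ) (hq : 0 < q) (j : ℕ) : sj q (j + 1) ≤ 171 * 16 ^ j * q := by
  have h : ∀ j : ℕ, sj q j = 160 * q * (16 ^ j - 1) / 15 := by
    intro j
    induction j with
    | zero => simp [sj]
    | succ j ih =>
      rw [sj_succ, ih]
      ring
  rw [h, pow_succ]
  have h1 : (0 : ℝ) < 16 ^ j * q := by positivity
  nlinarith [h1, hq]

/-- the interval of a level -/
noncomputable def lvlSet (q : ℝ) (J j : ℕ) : Set ℝ :=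
  if j < J then Set.Ico (sj q j) (sj q (j + 1)) else Set.Icc (sj q J) 1

theorem volume_lvlSet (q : ℝ) (J j : ℕ) : volume (lvlSet q J j) = ENNReal.ofReal (lv q J j) := by
  unfold lvlSet lv
  split_ifs with h
  · rw [Real.volume_Ico, sj_succ]
    congr 1
    ring
  · rw [Real.volume_Icc]
    rfl

theorem exists_level {q : ℝ} {J : ℕ} {u : ℝ} (h0 : 0 ≤ u) (h1 : u ≤ 1) :
    ∃ j, j ≤ J ∧ u ∈ lvlSet q J j := by
  classical
  by_cases h : ∃ j, j < J ∧ u < sj q (j + 1)
  · refine ⟨Nat.find h, (Nat.find_spec h).1.le, ?_⟩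
    unfold lvlSet
    rw [if_pos (Nat.find_spec h).1]
    refine ⟨?_, (Nat.find_spec h).2⟩
    rcases Nat.eq_zero_or_pos (Nat.find h) with h2 | h2
    · rw [h2]
      simpa [sj] using h0
    · have h3 := Nat.find_min h (Nat.sub_lt h2 one_pos)
      push Not at h3
      have h4 := h3 (lt_of_le_of_lt (Nat.sub_le _ _) (Nat.find_spec h).1)
      rwa [Nat.sub_add_cancel (show 1 ≤ Nat.find h from h2)] at h4
  · push Not at h
    refine ⟨J, le_rfl, ?_⟩
    unfold lvlSet
    rw [if_neg (lt_irrefl J)]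
    refine ⟨?_, h1⟩
    rcases Nat.eq_zero_or_pos J with h2 | h2
    · rw [h2]
      simpa [sj] using h0
    · have h3 := h (J - 1) (by omega)
      rwa [Nat.sub_add_cancel (show 1 ≤ J from h2)] at h3

theorem posLog_level {q : ℝ} (hq : 0 < q) {J j : ℕ} (hj : j ≤ J) {u : ℝ} (h0 : 0 ≤ u)
    (hJ : 1 ≤ sj q (J + 1)) (hu : u ∈ lvlSet q J j) :
    Real.posLog (u / (171 * q)) ≤ j * Real.log 16 := by
  have h1 : u ≤ 171 * 16 ^ j * q := by
    unfold lvlSet at hu
    split_ifs at hu with h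
    · exact hu.2.le.trans (sj_le q hq j)
    · have h2 : j = J := by omega
      rw [h2]
      exact (hu.2.trans hJ).trans (sj_le q hq J)
  have h2 : u / (171 * q) ≤ 16 ^ j := by
    rw [div_le_iff₀ (by positivity)]
    linarith
  have h3 := Real.posLog_le_posLog (div_nonneg h0 (by positivity)) h2
  have h4 : Real.posLog 16 = Real.log 16 := Real.posLog_eq_log (by norm_num)
  rw [Real.posLog_pow, h4] at h3
  exact h3

theorem log16 : Real.log 16 < 3 := by
  have h1 : Real.log 16 = 4 * Real.log 2 := by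
    rw [show (16 : ℝ) = 2 ^ 4 by norm_num, Real.log_pow]
    norm_num
  have := Real.log_two_lt_d9
  rw [h1]
  linarith

variable {X : Type*} [Fintype X] [DecidableEq X]

theorem volume_bad (κ : ℝ) (q : X → ℝ) (hq : ∀ x, 0 < q x) (F : Finset (Finset X))
    (lam : Finset X → X → ℝ) (hl : ∀ H ∈ F, ∀ x, 0 ≤ lam H x) (hsum : ∀ H ∈ F, ∑ x, lam H x ≤ 1)
    (hsupp : ∀ H ∈ F, ∀ x, x ∉ H → lam H x = 0)
    (hns : ∀ G : Finset (Finset X), (∀ H ∈ F, ∃ S ∈ G, S ⊆ H) → κ ≤ ∑ S ∈ G, ∏ x ∈ S, q x)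
    (hκ : 0 ≤ κ) :
    (volume {u : X → ℝ | (∀ x, u x ∈ Set.Icc (0 : ℝ) 1) ∧ ∀ H ∈ F,
      1 / 4 < ∑ x, lam H x * Real.posLog (u x / (171 * q x))}).toReal * κ ≤ 21 / 100 := by
  classical
  choose J hJ hJ2 using fun x => exists_J (q x) (hq x)
  have hlv : ∀ x j, 0 ≤ lv (q x) (J x) j := fun x => lv_nonneg (q x) (hq x).le (J x) (hJ x)
  set Ω : Finset (X → ℕ) := Fintype.piFinset (fun x => range (J x + 1)) with hΩ
  have hΩmem : ∀ φ : X → ℕ, φ ∈ Ω ↔ ∀ x, φ x ≤ J x := by
    intro φ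
    rw [hΩ, Fintype.mem_piFinset]
    constructor
    · intro h x; have := h x; rw [mem_range] at this; omega
    · intro h x; have := h x; rw [mem_range]; omega
  set B := Ω.filter (fun φ => ∀ H ∈ F, 1 / 12 < ∑ x, lam H x * φ x) with hBdef
  have hmass := bad_mass κ q hq J hJ F lam hl hsum hsupp hns B (by
    intro φ hφ
    rw [hBdef, mem_filter, hΩmem] at hφ
    exact hφ)
  have hsub : {u : X → ℝ | (∀ x, u x ∈ Set.Icc (0 : ℝ) 1) ∧ ∀ H ∈ F,
      1 / 4 < ∑ x, lam H x * Real.posLog (u x / (171 * q x))} ⊆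
      ⋃ φ ∈ B, Set.pi Set.univ (fun x => lvlSet (q x) (J x) (φ x)) := by
    rintro u ⟨hu, hbad⟩
    choose φ hφJ hφu using fun x => exists_level (q := q x) (J := J x) (hu x).1 (hu x).2
    rw [Set.mem_iUnion₂]
    refine ⟨φ, ?_, fun x _ => hφu x⟩
    rw [hBdef, mem_filter, hΩmem]
    refine ⟨hφJ, fun H hH => ?_⟩
    have h1 := hbad H hH
    have h2 : ∑ x, lam H x * Real.posLog (u x / (171 * q x)) ≤
        ∑ x, lam H x * (φ x * Real.log 16) := by
      apply Finset.sum_le_sum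
      intro x _
      exact mul_le_mul_of_nonneg_left (posLog_level (hq x) (hφJ x) (hu x).1 (hJ2 x) (hφu x))
        (hl H hH x)
    have h3 : ∑ x, lam H x * (φ x * Real.log 16) = (∑ x, lam H x * φ x) * Real.log 16 := by
      rw [Finset.sum_mul]
      apply Finset.sum_congr rfl
      intro x _
      ring
    have h4 : 0 ≤ ∑ x, lam H x * (φ x : ℝ) :=
      Finset.sum_nonneg (fun x _ => mul_nonneg (hl H hH x) (Nat.cast_nonneg _))
    have h5 := log16
    nlinarith [h1, h2, h3, h4, h5]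
  have hvol : volume {u : X → ℝ | (∀ x, u x ∈ Set.Icc (0 : ℝ) 1) ∧ ∀ H ∈ F,
      1 / 4 < ∑ x, lam H x * Real.posLog (u x / (171 * q x))} ≤
      ENNReal.ofReal (∑ φ ∈ B, ∏ x, lv (q x) (J x) (φ x)) := by
    refine (measure_mono hsub).trans ((measure_biUnion_finset_le _ _).trans ?_)
    rw [ENNReal.ofReal_sum_of_nonneg (fun φ _ => Finset.prod_nonneg (fun x _ => hlv x _))]
    apply Finset.sum_le_sum
    intro φ _
    rw [volume_pi_pi, ENNReal.ofReal_prod_of_nonneg (fun x _ => hlv x _)]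
    exact (Finset.prod_congr rfl (fun x _ => volume_lvlSet _ _ _)).le
  have hS0 : 0 ≤ ∑ φ ∈ B, ∏ x, lv (q x) (J x) (φ x) :=
    Finset.sum_nonneg (fun φ _ => Finset.prod_nonneg (fun x _ => hlv x _))
  have h6 := ENNReal.toReal_le_of_le_ofReal hS0 hvol
  exact (mul_le_mul_of_nonneg_right h6 hκ).trans hmass

/-- The multi-scale selector inequality: the least cost of a cover, times the probability that no
member of the family is light. -/
theorem selector (F : Set (Finset X)) (q : X → ℝ) (hq : ∀ x, 0 < q x) (lam : Finset X → X → ℝ)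
    (hl : ∀ H ∈ F, ∀ x ∈ H, 0 ≤ lam H x) (hsum : ∀ H ∈ F, ∑ x ∈ H, lam H x ≤ 1) :
    ∃ G : Finset (Finset X), (∀ H ∈ F, ∃ S ∈ G, S ⊆ H) ∧
      (∑ S ∈ G, ∏ x ∈ S, q x) *
        (volume {u : X → ℝ | (∀ x, u x ∈ Set.Icc (0 : ℝ) 1) ∧ ∀ H ∈ F,
          1 / 4 < ∑ x ∈ H, lam H x * Real.posLog (u x / (171 * q x))}).toReal ≤ 21 / 100 := by
  classical
  set F' : Finset (Finset X) := univ.filter (fun H => H ∈ F) with hF'
  have hmem : ∀ H, H ∈ F' ↔ H ∈ F := fun H => by simp [hF']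
  -- a cheapest cover
  obtain ⟨G, hG, hmin⟩ := Finset.exists_min_image
    ((univ : Finset (Finset (Finset X))).filter (fun G => ∀ H ∈ F, ∃ S ∈ G, S ⊆ H))
    (fun G => ∑ S ∈ G, ∏ x ∈ S, q x)
    ⟨univ, by
      rw [mem_filter]
      exact ⟨mem_univ _, fun H _ => ⟨H, mem_univ _, Subset.refl H⟩⟩⟩
  rw [mem_filter] at hG
  refine ⟨G, hG.2, ?_⟩
  set lam' : Finset X → X → ℝ := fun H x => if x ∈ H then lam H x else 0 with hlam'
  have hsum' : ∀ (H : Finset X) (f : X → ℝ), ∑ x, lam' H x * f x = ∑ x ∈ H, lam H x * f x := by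
    intro H f
    simp only [hlam', ite_mul, zero_mul]
    rw [Finset.sum_ite_mem, univ_inter]
  have h := volume_bad (∑ S ∈ G, ∏ x ∈ S, q x) q hq F' lam' (by
      intro H hH x
      simp only [hlam']
      split_ifs with hx
      · exact hl H ((hmem H).1 hH) x hx
      · exact le_rfl) (by
      intro H hH
      have := hsum' H (fun _ => 1)
      simp only [mul_one] at this
      rw [this]
      exact hsum H ((hmem H).1 hH)) (by
      intro H _ x hx
      simp only [hlam', if_neg hx]) (by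
      intro G' hG'
      refine hmin G' ?_
      rw [mem_filter]
      exact ⟨mem_univ _, fun H hH => hG' H ((hmem H).2 hH)⟩)
      (Finset.sum_nonneg (fun S _ => Finset.prod_nonneg (fun x _ => (hq x).le)))
  rw [mul_comm]
  have e : {u : X → ℝ | (∀ x, u x ∈ Set.Icc (0 : ℝ) 1) ∧ ∀ H ∈ F',
      1 / 4 < ∑ x, lam' H x * Real.posLog (u x / (171 * q x))} =
      {u : X → ℝ | (∀ x, u x ∈ Set.Icc (0 : ℝ) 1) ∧ ∀ H ∈ F,
      1 / 4 < ∑ x ∈ H, lam H x * Real.posLog (u x / (171 * q x))} := by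
    ext u
    simp only [Set.mem_setOf_eq, hmem, hsum']
  rw [e] at h
  exact h

end Vale.Agent.P034.H953.H434
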